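import Vale.Agent.P136.Defs

/-! Calculus and energy lemmas (P136). -/

open MeasureTheory Set
open scoped ContDiff

namespace Vale.Agent.P136

variable {Ω : Set R3} {lam mu : R3 → ℝ}

theorem intOn (hb : Bornology.IsBounded Ω) {f : R3 → ℝ} (hf : ContinuousOn f (closure Ω)) :
    IntegrableOn f Ω :=
  (hf.integrableOn_compact hb.isCompact_closure).mono_set subset_closure

theorem contDiff_pd {f : R3 → ℝ} (hf : ContDiff ℝ ∞ f) (i : Fin 3) : ContDiff ℝ ∞ (pd i f) :=
  (hf.fderiv_right (m := ∞) (by simp)).clm_apply contDiff_const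

theorem contDiff_comp_apply {u : R3 → R3} (hu : ContDiff ℝ ∞ u) (j : Fin 3) :
    ContDiff ℝ ∞ (fun y => u y j) := contDiff_pi.1 hu j

theorem contDiff_grad {u : R3 → R3} (hu : ContDiff ℝ ∞ u) (i j : Fin 3) :
    ContDiff ℝ ∞ (fun x => grad u x i j) := contDiff_pd (contDiff_comp_apply hu j) i

theorem contDiff_divg {u : R3 → R3} (hu : ContDiff ℝ ∞ u) : ContDiff ℝ ∞ (divg u) :=
  ContDiff.sum fun i _ => contDiff_grad hu i i

theorem contDiff_strain {u : R3 → R3} (hu : ContDiff ℝ ∞ u) (i j : Fin 3) :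
    ContDiff ℝ ∞ (fun x => strain u x i j) :=
  ((contDiff_grad hu i j).add (contDiff_grad hu j i)).div_const 2

theorem pd_add {f g : R3 → ℝ} (hf : ContDiff ℝ ∞ f) (hg : ContDiff ℝ ∞ g) (i : Fin 3) (x : R3) :
    pd i (fun y => f y + g y) x = pd i f x + pd i g x := by
  unfold pd
  rw [fderiv_fun_add (hf.differentiable (by simp) x) (hg.differentiable (by simp) x)]
  rfl

theorem pd_const_mul {f : R3 → ℝ} (hf : ContDiff ℝ ∞ f) (c : ℝ) (i : Fin 3) (x : R3) :
    pd i (fun y => c * f y) x = c * pd i f x := by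
  unfold pd
  rw [fderiv_const_mul (hf.differentiable (by simp) x)]
  rfl

theorem pd_const (c : ℝ) (i : Fin 3) (x : R3) : pd i (fun _ => c) x = 0 := by
  simp [pd]

theorem pd_comm {f : R3 → ℝ} (hf : ContDiff ℝ ∞ f) (i j : Fin 3) (x : R3) :
    pd i (pd j f) x = pd j (pd i f) x := by
  have hd : DifferentiableAt ℝ (fderiv ℝ f) x :=
    (hf.fderiv_right (m := ∞) (by simp)).differentiable (by simp) x
  have key : ∀ a b : Fin 3, pd a (pd b f) x
      = fderiv ℝ (fderiv ℝ f) x (Pi.single a 1) (Pi.single b 1) := by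
    intro a b
    unfold pd
    rw [fderiv_clm_apply hd (differentiableAt_const _)]
    simp
  rw [key, key]
  exact (hf.contDiffAt.isSymmSndFDerivAt (by simp; exact WithTop.coe_le_coe.2 le_top)).eq _ _

theorem grad_add {u v : R3 → R3} (hu : ContDiff ℝ ∞ u) (hv : ContDiff ℝ ∞ v) (x : R3)
    (i j : Fin 3) : grad (u + v) x i j = grad u x i j + grad v x i j :=
  pd_add (contDiff_comp_apply hu j) (contDiff_comp_apply hv j) i x

theorem grad_smul {u : R3 → R3} (hu : ContDiff ℝ ∞ u) (c : ℝ) (x : R3) (i j : Fin 3) :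
    grad (c • u) x i j = c * grad u x i j :=
  pd_const_mul (contDiff_comp_apply hu j) c i x

theorem divg_add {u v : R3 → R3} (hu : ContDiff ℝ ∞ u) (hv : ContDiff ℝ ∞ v) (x : R3) :
    divg (u + v) x = divg u x + divg v x := by
  simp [divg, grad_add hu hv, Finset.sum_add_distrib]

theorem strain_add {u v : R3 → R3} (hu : ContDiff ℝ ∞ u) (hv : ContDiff ℝ ∞ v) (x : R3)
    (i j : Fin 3) : strain (u + v) x i j = strain u x i j + strain v x i j := by
  simp [strain, grad_add hu hv]
  ring

theorem divg_smul {u : R3 → R3} (hu : ContDiff ℝ ∞ u) (c : ℝ) (x : R3) :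
    divg (c • u) x = c * divg u x := by
  simp [divg, grad_smul hu, Finset.mul_sum]

theorem strain_smul {u : R3 → R3} (hu : ContDiff ℝ ∞ u) (c : ℝ) (x : R3) (i j : Fin 3) :
    strain (c • u) x i j = c * strain u x i j := by
  simp [strain, grad_smul hu]
  ring

/-- The bilinear form of the density. -/
noncomputable def bil (lam mu : R3 → ℝ) (u w : R3 → R3) (x : R3) : ℝ :=
  lam x * divg u x * divg w x + 2 * mu x * ∑ i, ∑ j, strain u x i j * strain w x i j

theorem density_add {u w : R3 → R3} (hu : ContDiff ℝ ∞ u) (hw : ContDiff ℝ ∞ w) (x : R3) :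
    density lam mu (u + w) x
      = density lam mu u x + 2 * bil lam mu u w x + density lam mu w x := by
  simp only [density, bil, divg_add hu hw, strain_add hu hw, Fin.sum_univ_three]
  ring

theorem density_smul {w : R3 → R3} (hw : ContDiff ℝ ∞ w) (t : ℝ) (x : R3) :
    density lam mu (t • w) x = t ^ 2 * density lam mu w x := by
  simp only [density, divg_smul hw, strain_smul hw, Fin.sum_univ_three]
  ring

theorem bil_smul {u w : R3 → R3} (hw : ContDiff ℝ ∞ w) (t : ℝ) (x : R3) :
    bil lam mu u (t • w) x = t * bil lam mu u w x := by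
  simp only [bil, divg_smul hw, strain_smul hw, Fin.sum_univ_three]
  ring

theorem continuousOn_density (hl : ContinuousOn lam (closure Ω))
    (hm : ContinuousOn mu (closure Ω)) {u : R3 → R3} (hu : ContDiff ℝ ∞ u) :
    ContinuousOn (density lam mu u) (closure Ω) := by
  have h1 := (contDiff_divg hu).continuous.continuousOn (s := closure Ω)
  have h2 : ContinuousOn (fun x => ∑ i, ∑ j, strain u x i j ^ 2) (closure Ω) :=
    continuousOn_finsetSum _ fun i _ => continuousOn_finsetSum _ fun j _ =>
      ((contDiff_strain hu i j).continuous.continuousOn).pow 2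
  exact (hl.mul (h1.pow 2)).add ((continuousOn_const.mul hm).mul h2)

theorem continuousOn_bil (hl : ContinuousOn lam (closure Ω))
    (hm : ContinuousOn mu (closure Ω)) {u w : R3 → R3} (hu : ContDiff ℝ ∞ u)
    (hw : ContDiff ℝ ∞ w) :
    ContinuousOn (bil lam mu u w) (closure Ω) := by
  have h1 := (contDiff_divg hu).continuous.continuousOn (s := closure Ω)
  have h1' := (contDiff_divg hw).continuous.continuousOn (s := closure Ω)
  have h2 : ContinuousOn (fun x => ∑ i, ∑ j, strain u x i j * strain w x i j) (closure Ω) :=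
    continuousOn_finsetSum _ fun i _ => continuousOn_finsetSum _ fun j _ =>
      ((contDiff_strain hu i j).continuous.continuousOn).mul
        (contDiff_strain hw i j).continuous.continuousOn
  exact ((hl.mul h1).mul h1').add ((continuousOn_const.mul hm).mul h2)

theorem energy_add (hb : Bornology.IsBounded Ω) (hl : ContinuousOn lam (closure Ω))
    (hm : ContinuousOn mu (closure Ω)) {u w : R3 → R3} (hu : ContDiff ℝ ∞ u)
    (hw : ContDiff ℝ ∞ w) :
    energy Ω lam mu (u + w)
      = energy Ω lam mu u + 2 * (∫ x in Ω, bil lam mu u w x) + energy Ω lam mu w := by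
  have a := intOn hb (continuousOn_density hl hm hu)
  have b := intOn hb (continuousOn_bil hl hm hu hw)
  have c := intOn hb (continuousOn_density hl hm hw)
  simp only [energy, density_add hu hw]
  have ab : IntegrableOn (fun x => density lam mu u x + 2 * bil lam mu u w x) Ω :=
    a.add (b.const_mul 2)
  have b2 : IntegrableOn (fun x => 2 * bil lam mu u w x) Ω := b.const_mul 2
  rw [integral_add ab c, integral_add a b2, integral_const_mul]

theorem density_lower {x : R3} (hm : 0 < mu x) (hk : 0 < 3 * lam x + 2 * mu x) (u : R3 → R3) :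
    0 ≤ density lam mu u x := by
  simp only [density, divg, Fin.sum_univ_three, strain, add_self_div_two]
  nlinarith [sq_nonneg (grad u x 0 0 - grad u x 1 1), sq_nonneg (grad u x 1 1 - grad u x 2 2),
    sq_nonneg (grad u x 0 0 - grad u x 2 2), sq_nonneg (grad u x 0 0 + grad u x 1 1 + grad u x 2 2),
    mul_nonneg hm.le (sq_nonneg ((grad u x 0 1 + grad u x 1 0) / 2)),
    mul_nonneg hm.le (sq_nonneg ((grad u x 0 2 + grad u x 2 0) / 2)),
    mul_nonneg hm.le (sq_nonneg ((grad u x 1 2 + grad u x 2 1) / 2)),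
    mul_nonneg hm.le (sq_nonneg ((grad u x 1 0 + grad u x 0 1) / 2)),
    mul_nonneg hm.le (sq_nonneg ((grad u x 2 0 + grad u x 0 2) / 2)),
    mul_nonneg hm.le (sq_nonneg ((grad u x 2 1 + grad u x 1 2) / 2)),
    mul_nonneg hm.le (sq_nonneg (grad u x 0 0 - grad u x 1 1)),
    mul_nonneg hm.le (sq_nonneg (grad u x 1 1 - grad u x 2 2)),
    mul_nonneg hm.le (sq_nonneg (grad u x 0 0 - grad u x 2 2)),
    mul_nonneg hk.le (sq_nonneg (grad u x 0 0 + grad u x 1 1 + grad u x 2 2))]

theorem isTestField_zero : IsTestField Ω 0 := by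
  refine ⟨contDiff_const, HasCompactSupport.zero, ?_⟩
  simp

theorem energy_nonneg (ho : IsOpen Ω) (ha : Admissible Ω lam mu) (u : R3 → R3) :
    0 ≤ energy Ω lam mu u :=
  setIntegral_nonneg ho.measurableSet fun x hx =>
    density_lower (ha.2.2 x (subset_closure hx)).1 (ha.2.2 x (subset_closure hx)).2 u

theorem dataForm_le (ho : IsOpen Ω) (ha : Admissible Ω lam mu) (F : R3 → R3) {w : R3 → R3}
    (hw : IsTestField Ω w) : dataForm Ω lam mu F ≤ energy Ω lam mu (F + w) :=
  csInf_le ⟨0, by rintro _ ⟨v, -, rfl⟩; exact energy_nonneg ho ha _⟩ (mem_image_of_mem _ hw)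

theorem dataForm_le_self (ho : IsOpen Ω) (ha : Admissible Ω lam mu) (F : R3 → R3) :
    dataForm Ω lam mu F ≤ energy Ω lam mu F := by
  simpa using dataForm_le ho ha F isTestField_zero

theorem le_dataForm {F : R3 → R3} {c : ℝ}
    (h : ∀ w, IsTestField Ω w → c ≤ energy Ω lam mu (F + w)) : c ≤ dataForm Ω lam mu F :=
  le_csInf (Nonempty.image _ ⟨0, isTestField_zero⟩) (by rintro _ ⟨w, hw, rfl⟩; exact h w hw)

theorem exists_lt_of_dataForm_lt {F : R3 → R3} {c : ℝ} (h : dataForm Ω lam mu F < c) :
    ∃ w, IsTestField Ω w ∧ energy Ω lam mu (F + w) < c := by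
  obtain ⟨_, ⟨w, hw, rfl⟩, hlt⟩ := exists_lt_of_csInf_lt (Nonempty.image _ ⟨0, isTestField_zero⟩) h
  exact ⟨w, hw, hlt⟩

/-- Integration by parts against a scalar test function. -/
theorem ibp (ho : IsOpen Ω) {φ g : R3 → ℝ} (hφ : ContDiff ℝ ∞ φ) (hc : HasCompactSupport φ)
    (hs : tsupport φ ⊆ Ω) (hg : ContDiffOn ℝ 1 g Ω) (i : Fin 3) :
    ∫ x in Ω, pd i φ x * g x = -∫ x in Ω, φ x * pd i g x := by
  have hpd : tsupport (pd i φ) ⊆ tsupport φ := tsupport_fderiv_apply_subset ℝ _
  have hcg : ContinuousOn (pd i g) Ω :=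
    (hg.continuousOn_fderiv_of_isOpen ho (by simp)).clm_apply continuousOn_const
  have mk : ∀ {a b : R3 → ℝ}, Continuous a → HasCompactSupport a → tsupport a ⊆ Ω →
      ContinuousOn b Ω → Integrable (fun x => a x * b x) := by
    intro a b ha hca hsa hb
    refine Continuous.integrable_of_hasCompactSupport ?_ hca.mul_right
    refine continuous_of_tsupport fun x hx => ?_
    exact ha.continuousAt.mul (hb.continuousAt (ho.mem_nhds
      (hsa (tsupport_mul_subset_left (f := a) (g := b) hx))))
  have hg0 : ContinuousOn g Ω := hg.continuousOn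
  have A := integral_mul_fderiv_eq_neg_fderiv_mul_of_integrable (μ := volume) (f := φ) (g := g)
    (v := Pi.single i 1)
    (mk (contDiff_pd hφ i).continuous (hc.fderiv_apply ℝ _) (hpd.trans hs) hg0)
    (mk hφ.continuous hc hs hcg) (mk hφ.continuous hc hs hg0)
    (fun x _ => hφ.differentiable (by simp) x)
    (fun x hx => (hg.differentiableOn (by simp) x (hs hx)).differentiableAt (ho.mem_nhds (hs hx)))
  have e1 : ∫ x in Ω, pd i φ x * g x = ∫ x, pd i φ x * g x :=
    setIntegral_eq_integral_of_forall_compl_eq_zero fun x hx => by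
      rw [image_eq_zero_of_notMem_tsupport (fun h => hx (hs (hpd h))), zero_mul]
  have e2 : ∫ x in Ω, φ x * pd i g x = ∫ x, φ x * pd i g x :=
    setIntegral_eq_integral_of_forall_compl_eq_zero fun x hx => by
      rw [image_eq_zero_of_notMem_tsupport (fun h => hx (hs h)), zero_mul]
  rw [e1, e2]
  simp only [pd] at A ⊢
  linarith

theorem test_comp {w : R3 → R3} (hw : IsTestField Ω w) (j : Fin 3) :
    ContDiff ℝ ∞ (fun y => w y j) ∧ HasCompactSupport (fun y => w y j) ∧
      tsupport (fun y => w y j) ⊆ Ω := by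
  refine ⟨contDiff_comp_apply hw.1 j, hw.2.1.comp_left (g := fun v : R3 => v j) rfl, ?_⟩
  refine (closure_mono fun x hx => ?_).trans hw.2.2
  intro h
  exact hx (by simp [h])

/-- A symmetric stress field pairs with the strain of a test field through its divergence. -/
theorem stress_ibp (ho : IsOpen Ω) (hb : Bornology.IsBounded Ω) {w : R3 → R3}
    (hw : IsTestField Ω w) {S : Fin 3 → Fin 3 → R3 → ℝ}
    (hS : ∀ i j, ContDiff ℝ ∞ (S i j)) (hsym : ∀ i j x, S i j x = S j i x) :
    ∫ x in Ω, ∑ i, ∑ j, S i j x * strain w x i j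
      = -∫ x in Ω, ∑ j, w x j * ∑ i, pd i (S i j) x := by
  have e : ∀ x, ∑ i, ∑ j, S i j x * strain w x i j
      = ∑ i, ∑ j, pd i (fun y => w y j) x * S i j x := by
    intro x
    simp only [strain, grad, Fin.sum_univ_three, hsym 1 0 x, hsym 2 0 x, hsym 2 1 x]
    ring
  have hi : ∀ i j, IntegrableOn (fun x => pd i (fun y => w y j) x * S i j x) Ω := fun i j =>
    intOn hb ((contDiff_grad hw.1 i j).continuous.mul (hS i j).continuous).continuousOn
  have hj : ∀ i j, IntegrableOn (fun x => w x j * pd i (S i j) x) Ω := fun i j =>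
    intOn hb ((contDiff_comp_apply hw.1 j).continuous.mul
      (contDiff_pd (hS i j) i).continuous).continuousOn
  have k : ∀ i j, ∫ x in Ω, pd i (fun y => w y j) x * S i j x
      = -∫ x in Ω, w x j * pd i (S i j) x := fun i j =>
    ibp ho (test_comp hw j).1 (test_comp hw j).2.1 (test_comp hw j).2.2
      ((hS i j).contDiffOn.of_le (by simp)) i
  simp only [e, Finset.mul_sum]
  rw [integral_finsetSum _ fun i _ => integrable_finsetSum _ fun j _ => hi i j,
    integral_finsetSum _ fun j _ => integrable_finsetSum _ fun i _ => hj i j]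
  simp only [integral_finsetSum _ fun j _ => hi _ j, integral_finsetSum _ fun i _ => hj i _, k,
    Finset.sum_neg_distrib]
  rw [Finset.sum_comm]

/-- The Korn identity in one direction. -/
theorem strain_sq_ge (ho : IsOpen Ω) (hb : Bornology.IsBounded Ω) {w : R3 → R3}
    (hw : IsTestField Ω w) :
    ∫ x in Ω, divg w x ^ 2 ≤ ∫ x in Ω, ∑ i, ∑ j, strain w x i j ^ 2 := by
  have hg : ∀ i j k l, IntegrableOn (fun x => grad w x i j * grad w x k l) Ω := fun i j k l =>
    intOn hb ((contDiff_grad hw.1 i j).continuous.mul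
      (contDiff_grad hw.1 k l).continuous).continuousOn
  have sw : ∀ i j, ∫ x in Ω, grad w x i j * grad w x j i
      = ∫ x in Ω, grad w x j j * grad w x i i := by
    intro i j
    obtain ⟨h1, h2, h3⟩ := test_comp hw j
    have A := ibp ho h1 h2 h3 ((contDiff_grad hw.1 j i).contDiffOn.of_le (by simp)) i
    have B := ibp ho h1 h2 h3 ((contDiff_grad hw.1 i i).contDiffOn.of_le (by simp)) j
    unfold grad at A B ⊢
    rw [A, B]
    congr 1
    refine integral_congr_ae (.of_forall fun x => ?_)
    show _ * pd i (pd j fun y => w y i) x = _ * pd j (pd i fun y => w y i) x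
    rw [pd_comm (contDiff_comp_apply hw.1 i)]
  have cross : ∫ x in Ω, ∑ i, ∑ j, grad w x i j * grad w x j i = ∫ x in Ω, divg w x ^ 2 := by
    have e : ∀ x, divg w x ^ 2 = ∑ i, ∑ j, grad w x j j * grad w x i i := by
      intro x
      simp [divg, Fin.sum_univ_three]
      ring
    simp only [e]
    rw [integral_finsetSum _ fun i _ => integrable_finsetSum _ fun j _ => hg i j j i,
      integral_finsetSum _ fun i _ => integrable_finsetSum _ fun j _ => hg j j i i]
    refine Finset.sum_congr rfl fun i _ => ?_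
    rw [integral_finsetSum _ fun j _ => hg i j j i, integral_finsetSum _ fun j _ => hg j j i i]
    exact Finset.sum_congr rfl fun j _ => sw i j
  rw [← cross]
  refine setIntegral_mono_on
    (integrable_finsetSum _ fun i _ => integrable_finsetSum _ fun j _ => hg i j j i)
    (intOn hb (continuous_finsetSum _ fun i _ => continuous_finsetSum _ fun j _ =>
      ((contDiff_strain hw.1 i j).continuous.pow 2)).continuousOn) ho.measurableSet fun x _ => ?_
  simp only [strain, Fin.sum_univ_three]
  nlinarith [sq_nonneg (grad w x 0 1 - grad w x 1 0), sq_nonneg (grad w x 0 2 - grad w x 2 0),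
    sq_nonneg (grad w x 1 2 - grad w x 2 1)]

end Vale.Agent.P136
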