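import Mathlib

/-! Lamé energy and boundary data form (P136). -/

open MeasureTheory Set
open scoped ContDiff

namespace Vale.Agent.P136

/-- Three-dimensional space. -/
abbrev R3 := Fin 3 → ℝ

/-- The partial derivative with respect to the `i`th coordinate. -/
noncomputable def pd (i : Fin 3) (f : R3 → ℝ) (x : R3) : ℝ := fderiv ℝ f x (Pi.single i 1)

/-- The derivative of the `j`th component in direction `i`. -/
noncomputable def grad (u : R3 → R3) (x : R3) (i j : Fin 3) : ℝ := pd i (fun y => u y j) x

/-- Divergence. -/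
noncomputable def divg (u : R3 → R3) (x : R3) : ℝ := ∑ i, grad u x i i

/-- Symmetric gradient. -/
noncomputable def strain (u : R3 → R3) (x : R3) (i j : Fin 3) : ℝ :=
  (grad u x i j + grad u x j i) / 2

/-- Elastic energy density. -/
noncomputable def density (lam mu : R3 → ℝ) (u : R3 → R3) (x : R3) : ℝ :=
  lam x * divg u x ^ 2 + 2 * mu x * ∑ i, ∑ j, strain u x i j ^ 2

/-- Elastic energy on `Ω`. -/
noncomputable def energy (Ω : Set R3) (lam mu : R3 → ℝ) (u : R3 → R3) : ℝ :=
  ∫ x in Ω, density lam mu u x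

/-- Smooth fields with compact support inside `Ω`. -/
def IsTestField (Ω : Set R3) (w : R3 → R3) : Prop :=
  ContDiff ℝ ∞ w ∧ HasCompactSupport w ∧ tsupport w ⊆ Ω

/-- Least energy among smooth fields which differ from `F` by a test field: the quadratic form of
the displacement-to-traction map at the trace of `F`. -/
noncomputable def dataForm (Ω : Set R3) (lam mu : R3 → ℝ) (F : R3 → R3) : ℝ :=
  sInf ((fun w => energy Ω lam mu (F + w)) '' {w | IsTestField Ω w})

/-- Admissible Lamé moduli, continuous up to the boundary. -/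
def Admissible (Ω : Set R3) (lam mu : R3 → ℝ) : Prop :=
  ContinuousOn lam (closure Ω) ∧ ContinuousOn mu (closure Ω) ∧
    ∀ x ∈ closure Ω, 0 < mu x ∧ 0 < 3 * lam x + 2 * mu x

/-- Equal quadratic displacement-to-traction data. -/
def SameData (Ω : Set R3) (l₁ m₁ l₂ m₂ : R3 → ℝ) : Prop :=
  ∀ F : R3 → R3, ContDiff ℝ ∞ F → dataForm Ω l₁ m₁ F = dataForm Ω l₂ m₂ F

end Vale.Agent.P136
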