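import Vale.Agent.P136.Basic

/-! Explicit displacement fields and density of exponentials (P136). -/

open MeasureTheory Set
open scoped ContDiff

namespace Vale.Agent.P136

/-- A linear form given by its coefficients. -/
noncomputable def lin (a : R3) : R3 →L[ℝ] ℝ := ∑ k, a k • ContinuousLinearMap.proj k

theorem lin_apply (a x : R3) : lin a x = ∑ k, a k * x k := by simp [lin]

theorem lin_single (a : R3) (i : Fin 3) : lin a (Pi.single i 1) = a i := by
  simp [lin_apply, Pi.single_apply]

theorem lin_add (a b x : R3) : lin (a + b) x = lin a x + lin b x := by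
  simp [lin_apply, add_mul, Finset.sum_add_distrib]

theorem contDiff_lin (a : R3) : ContDiff ℝ ∞ (fun x => lin a x) := (lin a).contDiff

theorem pd_lin (a : R3) (i : Fin 3) (x : R3) : pd i (fun y => lin a y) x = a i := by
  unfold pd
  rw [(lin a).hasFDerivAt.fderiv, lin_single]

theorem pd_lin_mul {f : R3 → ℝ} (hf : ContDiff ℝ ∞ f) (a : R3) (i : Fin 3) (x : R3) :
    pd i (fun y => lin a y * f y) x = a i * f x + lin a x * pd i f x := by
  unfold pd
  rw [fderiv_fun_mul ((lin a).differentiableAt) (hf.differentiable (by simp) x),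
    (lin a).hasFDerivAt.fderiv]
  simp [lin_single]
  ring

/-- The exponential of a linear form. -/
noncomputable def expo (a : R3) (x : R3) : ℝ := Real.exp (lin a x)

theorem contDiff_expo (a : R3) : ContDiff ℝ ∞ (expo a) := (contDiff_lin a).exp

theorem pd_expo (a : R3) (i : Fin 3) (x : R3) : pd i (expo a) x = a i * expo a x := by
  have h : HasFDerivAt (expo a) (Real.exp (lin a x) • lin a) x := (lin a).hasFDerivAt.exp
  unfold pd
  rw [h.fderiv]
  simp [lin_single, expo]
  ring

/-- An oscillating exponential. -/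
noncomputable def osc (h b : R3) (A B : ℝ) (x : R3) : ℝ :=
  Real.exp (lin h x) * (A * Real.cos (lin b x) + B * Real.sin (lin b x))

theorem contDiff_osc (h b : R3) (A B : ℝ) : ContDiff ℝ ∞ (osc h b A B) :=
  ((contDiff_lin h).exp).mul
    ((contDiff_const.mul (contDiff_lin b).cos).add (contDiff_const.mul (contDiff_lin b).sin))

theorem pd_osc (h b : R3) (A B : ℝ) (i : Fin 3) (x : R3) :
    pd i (osc h b A B) x = osc h b (h i * A + b i * B) (h i * B - b i * A) x := by
  have H : HasFDerivAt (osc h b A B) _ x :=
    ((lin h).hasFDerivAt (x := x)).exp.mul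
      ((((lin b).hasFDerivAt (x := x)).cos.const_mul A).add
        (((lin b).hasFDerivAt (x := x)).sin.const_mul B))
  unfold pd
  rw [H.fderiv]
  simp [lin_single, osc]
  ring

/-- `u` has divergence `q` and solves the constant-shear equilibrium equation up to the
residual `p`: the divergence of `2 m e(u)` is the gradient of `2 m q - p`. -/
def Balanced (m : ℝ) (u : R3 → R3) (q p : R3 → ℝ) : Prop :=
  ContDiff ℝ ∞ u ∧ ContDiff ℝ ∞ q ∧ ContDiff ℝ ∞ p ∧ (∀ x, divg u x = q x) ∧
    ∀ x j, ∑ i, pd i (fun y => 2 * m * strain u y i j) x = 2 * m * pd j q x - pd j p x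

theorem balanced_zero (m c : ℝ) : Balanced m 0 (fun _ => 0) (fun _ => c) := by
  refine ⟨contDiff_const, contDiff_const, contDiff_const, fun x => ?_, fun x j => ?_⟩ <;>
    simp [divg, strain, grad, pd_const]

theorem balanced_add {m : ℝ} {u v : R3 → R3} {q q' p p' : R3 → ℝ} (hu : Balanced m u q p)
    (hv : Balanced m v q' p') :
    Balanced m (u + v) (fun x => q x + q' x) (fun x => p x + p' x) := by
  obtain ⟨h1, h2, h3, h4, h5⟩ := hu
  obtain ⟨k1, k2, k3, k4, k5⟩ := hv
  refine ⟨h1.add k1, h2.add k2, h3.add k3, fun x => by rw [divg_add h1 k1, h4, k4], fun x j => ?_⟩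
  simp only [strain_add h1 k1, mul_add, pd_add h2 k2, pd_add h3 k3,
    pd_add (contDiff_const.mul (contDiff_strain h1 _ j)) (contDiff_const.mul (contDiff_strain k1 _ j)),
    Finset.sum_add_distrib, h5, k5]
  ring

theorem balanced_smul {m c : ℝ} {u : R3 → R3} {q p : R3 → ℝ} (hu : Balanced m u q p) :
    Balanced m (c • u) (fun x => c * q x) (fun x => c * p x) := by
  obtain ⟨h1, h2, h3, h4, h5⟩ := hu
  refine ⟨h1.const_smul c, contDiff_const.mul h2, contDiff_const.mul h3,
    fun x => by rw [divg_smul h1, h4], fun x j => ?_⟩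
  have e : ∀ i, (fun y => 2 * m * strain (c • u) y i j) = fun y => c * (2 * m * strain u y i j) := by
    intro i; funext y; rw [strain_smul h1]; ring
  simp only [e, pd_const_mul (contDiff_const.mul (contDiff_strain h1 _ j)), pd_const_mul h2,
    pd_const_mul h3, ← Finset.mul_sum, h5]
  ring

/-- Every exponential is a divergence of a balanced field with no residual. -/
theorem balanced_expo (m : ℝ) (a : R3) :
    ∃ u, Balanced m u (expo a) (fun _ => 0) := by
  by_cases ha : a = 0
  · subst ha
    refine ⟨fun x => Pi.single 0 (x 0), ?_, contDiff_expo 0, contDiff_const, fun x => ?_,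
      fun x j => ?_⟩
    · refine contDiff_pi.2 fun j => ?_
      by_cases hj : j = 0
      · subst hj; simpa using contDiff_apply ℝ ℝ (0 : Fin 3)
      · simpa [hj] using contDiff_const
    all_goals
      have g : ∀ y : R3, ∀ i k : Fin 3,
          grad (fun x => (Pi.single 0 (x 0) : R3)) y i k = if i = 0 ∧ k = 0 then 1 else 0 := by
        intro y i k
        by_cases hk : k = 0
        · subst hk
          simp [grad, pd, Pi.single_apply, (hasFDerivAt_apply (𝕜 := ℝ) (0 : Fin 3) y).fderiv,
            eq_comm]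
        · simp [grad, hk, pd]
    · simp [divg, g, expo, lin_apply]
    · simp [strain, g, pd_expo, pd_const]
  · set n := ∑ k, a k * a k with hn
    have hn0 : n ≠ 0 := by
      intro h
      apply ha
      funext k
      have := (Finset.sum_eq_zero_iff_of_nonneg (fun i _ => mul_self_nonneg (a i))).1 h k
        (Finset.mem_univ k)
      simpa using mul_self_eq_zero.1 this
    refine ⟨fun x j => a j / n * expo a x, contDiff_pi.2 fun j => contDiff_const.mul
      (contDiff_expo a), contDiff_expo a, contDiff_const, fun x => ?_, fun x j => ?_⟩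
    · simp only [divg, grad, pd_const_mul (contDiff_expo a), pd_expo]
      calc ∑ i, a i / n * (a i * expo a x) = (∑ i, a i * a i) / n * expo a x := by
            rw [Finset.sum_div, Finset.sum_mul]
            exact Finset.sum_congr rfl fun i _ => by ring
        _ = expo a x := by rw [← hn, div_self hn0, one_mul]
    · have e : ∀ i, (fun y => 2 * m * strain (fun x k => a k / n * expo a x) y i j)
          = fun y => (2 * m * (a i * a j) / n) * expo a y := by
        intro i; funext y
        simp only [strain, grad, pd_const_mul (contDiff_expo a), pd_expo]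
        ring
      simp only [e, pd_const_mul (contDiff_expo a), pd_expo, pd_const, sub_zero]
      calc ∑ i, 2 * m * (a i * a j) / n * (a i * expo a x)
            = 2 * m * a j * ((∑ i, a i * a i) / n) * expo a x := by
            rw [Finset.sum_div, Finset.mul_sum, Finset.sum_mul]
            exact Finset.sum_congr rfl fun i _ => by ring
        _ = 2 * m * (a j * expo a x) := by rw [← hn, div_self hn0]; ring

/-- An orthogonal nonzero vector. -/
theorem exists_orth (a : R3) : ∃ b : R3, 0 < ∑ k, b k * b k ∧ ∑ k, a k * b k = 0 := by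
  by_cases h : a 0 = 0 ∧ a 1 = 0
  · exact ⟨![1, 0, 0], by simp [Fin.sum_univ_three], by simp [Fin.sum_univ_three, h.1]⟩
  · refine ⟨![a 1, -a 0, 0], ?_, by simp [Fin.sum_univ_three]; ring⟩
    simp only [Fin.sum_univ_three, Matrix.cons_val_zero, Matrix.cons_val_one, Matrix.cons_val,
      mul_zero, add_zero]
    rcases not_and_or.1 h with h | h <;>
      nlinarith [mul_self_pos.2 h, mul_self_nonneg (a 0), mul_self_nonneg (a 1)]

/-- Harmonic oscillating exponentials are residuals of divergence-free balanced fields. -/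
theorem balanced_osc {m : ℝ} (hm : m ≠ 0) {h b : R3} (hh : ∑ k, h k * h k ≠ 0)
    (hsq : ∑ k, h k * h k = ∑ k, b k * b k) (hor : ∑ k, h k * b k = 0) (A B : ℝ) :
    ∃ u, Balanced m u (fun _ => 0) (osc h b A B) := by
  set n := ∑ k, h k * h k with hn
  set C := -1 / (2 * m * n) with hC
  let A1 : Fin 3 → ℝ := fun j => h j * A + b j * B
  let B1 : Fin 3 → ℝ := fun j => h j * B - b j * A
  let A2 : Fin 3 → Fin 3 → ℝ := fun i j => h i * A1 j + b i * B1 j
  let B2 : Fin 3 → Fin 3 → ℝ := fun i j => h i * B1 j - b i * A1 j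
  let u : R3 → R3 := fun x j =>
    C * (lin h x * osc h b (A1 j) (B1 j) x + (-h j) * osc h b A B x)
  have c1 : ∀ j, ContDiff ℝ ∞ (fun x => lin h x * osc h b (A1 j) (B1 j) x) := fun j =>
    (contDiff_lin h).mul (contDiff_osc h b _ _)
  have c2 : ∀ j : Fin 3, ContDiff ℝ ∞ (fun x => (-h j) * osc h b A B x) := fun j =>
    contDiff_const.mul (contDiff_osc h b A B)
  have g : ∀ x i j, grad u x i j = C * (h i * osc h b (A1 j) (B1 j) x
      + lin h x * osc h b (A2 i j) (B2 i j) x - h j * osc h b (A1 i) (B1 i) x) := by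
    intro x i j
    show pd i (fun y => C * (lin h y * osc h b (A1 j) (B1 j) y + (-h j) * osc h b A B y)) x = _
    rw [pd_const_mul ((c1 j).add (c2 j)), pd_add (c1 j) (c2 j),
      pd_lin_mul (contDiff_osc _ _ _ _), pd_osc, pd_const_mul (contDiff_osc _ _ _ _), pd_osc]
    ring
  refine ⟨u, contDiff_pi.2 fun j => contDiff_const.mul ((c1 j).add (c2 j)), contDiff_const,
    contDiff_osc _ _ _ _, fun x => ?_, fun x j => ?_⟩
  · simp only [divg, g, osc, A1, B1, A2, B2, Fin.sum_univ_three] at hsq hor ⊢
    simp only [hn, Fin.sum_univ_three] at hsq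
    linear_combination
      (C * lin h x * Real.exp (lin h x) * (A * Real.cos (lin b x) + B * Real.sin (lin b x))) * hsq
      + (C * lin h x * Real.exp (lin h x) *
          (2 * B * Real.cos (lin b x) - 2 * A * Real.sin (lin b x))) * hor
  · have es : ∀ i, (fun y => 2 * m * strain u y i j)
        = fun y => 2 * m * C * (lin h y * osc h b (A2 i j) (B2 i j) y) := by
      intro i; funext y
      simp only [strain, g, osc, A2, B2, A1, B1]
      ring
    simp only [es, pd_const_mul ((contDiff_lin h).mul (contDiff_osc h b _ _)),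
      pd_lin_mul (contDiff_osc _ _ _ _), pd_osc, pd_const]
    have hC1 : 2 * m * C * n = -1 := by rw [hC]; field_simp
    simp only [hn, Fin.sum_univ_three] at hC1 hsq
    simp only [Fin.sum_univ_three] at hor
    simp only [osc, A1, B1, A2, B2, Fin.sum_univ_three]
    linear_combination
      (Real.exp (lin h x) * ((h j * A + b j * B) * Real.cos (lin b x)
        + (h j * B - b j * A) * Real.sin (lin b x))) * hC1
      + (2 * m * C * lin h x * Real.exp (lin h x) * ((h j * A + b j * B) * Real.cos (lin b x)
        + (h j * B - b j * A) * Real.sin (lin b x))) * hsq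
      + (2 * m * C * lin h x * Real.exp (lin h x) * (2 * (h j * B - b j * A) * Real.cos (lin b x)
        - 2 * (h j * A + b j * B) * Real.sin (lin b x))) * hor
      + (2 * m * C * Real.exp (lin h x) * ((h j * B - b j * A) * Real.cos (lin b x)
        - (h j * A + b j * B) * Real.sin (lin b x))) * hor

/-- Linear combinations of exponentials are dense on compact sets. -/
theorem exists_approx {K : Set R3} (hK : IsCompact K) {f : R3 → ℝ} (hf : ContinuousOn f K)
    (P : (R3 → ℝ) → Prop) (h0 : P (fun _ => 0))
    (hadd : ∀ q r, P q → P r → P (fun x => q x + r x))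
    (hsmul : ∀ (c : ℝ) q, P q → P (fun x => c * q x)) (hexp : ∀ a, P (expo a))
    {ε : ℝ} (hε : 0 < ε) : ∃ q, P q ∧ ∀ x ∈ K, |q x - f x| < ε := by
  haveI : CompactSpace K := isCompact_iff_compactSpace.1 hK
  let E : R3 → C(K, ℝ) := fun a =>
    ⟨fun x => expo a x, (contDiff_expo a).continuous.comp continuous_subtype_val⟩
  have hmul : ∀ a b, E a * E b = E (a + b) := by
    intro a b; ext x; simp [E, expo, lin_add, Real.exp_add]
  have hone : (1 : C(K, ℝ)) ∈ Submodule.span ℝ (range E) := by
    refine Submodule.subset_span ⟨0, ?_⟩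
    ext x; simp [E, expo, lin_apply]
  let S : Subalgebra ℝ C(K, ℝ) := (Submodule.span ℝ (range E)).toSubalgebra hone (by
    intro p q hp hq
    have := Submodule.mul_mem_mul hp hq
    rw [Submodule.span_mul_span] at this
    refine Submodule.span_mono ?_ this
    rintro _ ⟨_, ⟨a, rfl⟩, _, ⟨b, rfl⟩, rfl⟩
    exact ⟨a + b, (hmul a b).symm⟩)
  have hsep : S.SeparatesPoints := by
    intro x y hxy
    obtain ⟨k, hk⟩ := Function.ne_iff.1 (Subtype.coe_ne_coe.2 hxy)
    refine ⟨_, ⟨E (Pi.single k 1), Submodule.subset_span ⟨_, rfl⟩, rfl⟩, ?_⟩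
    simp [E, expo, lin_apply, Pi.single_apply, hk]
  obtain ⟨⟨g, hg⟩, hgf⟩ := ContinuousMap.exists_mem_subalgebra_near_continuous_of_separatesPoints
    S hsep (fun x : K => f x) (continuousOn_iff_continuous_restrict.1 hf) ε hε
  have key : ∀ p ∈ Submodule.span ℝ (range E), ∃ q, P q ∧ ∀ x : K, q x = p x := by
    intro p hp
    induction hp using Submodule.span_induction with
    | mem p hp =>
      obtain ⟨a, rfl⟩ := hp
      exact ⟨expo a, hexp a, fun x => rfl⟩
    | zero => exact ⟨_, h0, fun x => rfl⟩
    | add p r _ _ hp hr =>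
      obtain ⟨q, hq, eq⟩ := hp
      obtain ⟨q', hq', eq'⟩ := hr
      exact ⟨_, hadd q q' hq hq', fun x => by simp [eq, eq']⟩
    | smul c p _ hp =>
      obtain ⟨q, hq, eq⟩ := hp
      exact ⟨_, hsmul c q hq, fun x => by simp [eq]⟩
  obtain ⟨q, hq, eq⟩ := key g hg
  refine ⟨q, hq, fun x hx => ?_⟩
  have := hgf ⟨x, hx⟩
  rw [Real.norm_eq_abs] at this
  simpa [eq ⟨x, hx⟩] using this

/-- A continuous function orthogonal to all exponentials vanishes. -/
theorem eq_zero_of_expo {Ω : Set R3} (ho : IsOpen Ω) (hb : Bornology.IsBounded Ω) {g : R3 → ℝ}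
    (hg : ContinuousOn g (closure Ω)) (h : ∀ a, ∫ x in Ω, g x * expo a x = 0) :
    ∀ x ∈ Ω, g x = 0 := by
  have hK := hb.isCompact_closure
  obtain ⟨M, hM⟩ := hK.exists_bound_of_continuousOn hg
  have hsm : IntegrableOn (fun x => g x * g x) Ω := intOn hb (hg.mul hg)
  have hle : ∀ ε > 0, ∫ x in Ω, g x * g x ≤ ε * ∫ _ in Ω, M := by
    intro ε hε
    obtain ⟨q, ⟨hqc, hq⟩, hq2⟩ := exists_approx hK hg
      (fun q => Continuous q ∧ ∫ x in Ω, g x * q x = 0) ⟨continuous_const, by simp⟩
      (fun q r hq hr => ⟨hq.1.add hr.1, by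
        simp only [mul_add]
        rw [integral_add (f := fun x => g x * q x) (g := fun x => g x * r x)
          (intOn hb (hg.mul hq.1.continuousOn)) (intOn hb (hg.mul hr.1.continuousOn)),
          hq.2, hr.2, add_zero]⟩)
      (fun c q hq => ⟨continuous_const.mul hq.1, by
        simp only [mul_left_comm _ c]
        rw [integral_const_mul, hq.2, mul_zero]⟩)
      (fun a => ⟨(contDiff_expo a).continuous, h a⟩) hε
    have i1 : IntegrableOn (fun x => g x * q x) Ω := intOn hb (hg.mul hqc.continuousOn)
    have i2 : IntegrableOn (fun _ => ε * M) Ω := intOn hb continuousOn_const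
    calc ∫ x in Ω, g x * g x = ∫ x in Ω, (g x * g x - g x * q x) := by
          rw [integral_sub hsm i1, hq, sub_zero]
      _ ≤ ∫ _ in Ω, ε * M := setIntegral_mono_on (hsm.sub i1) i2 ho.measurableSet fun x hx => by
          have a1 := hM x (subset_closure hx)
          have a2 := (hq2 x (subset_closure hx)).le
          rw [Real.norm_eq_abs] at a1
          calc g x * g x - g x * q x = g x * -(q x - g x) := by ring
            _ ≤ |g x * -(q x - g x)| := le_abs_self _
            _ = |g x| * |q x - g x| := by rw [abs_mul, abs_neg]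
            _ ≤ M * ε := mul_le_mul a1 a2 (abs_nonneg _) ((abs_nonneg _).trans a1)
            _ = ε * M := mul_comm _ _
      _ = ε * ∫ _ in Ω, M := integral_const_mul _ _
  have hz : ∫ x in Ω, g x * g x = 0 := by
    refine le_antisymm ?_ (setIntegral_nonneg ho.measurableSet fun x _ => mul_self_nonneg _)
    refine le_of_forall_pos_le_add fun δ hδ => ?_
    have hI := hle (δ / (|∫ _ in Ω, M| + 1)) (by positivity)
    have : δ / (|∫ _ in Ω, M| + 1) * ∫ _ in Ω, M ≤ δ := by
      rw [div_mul_eq_mul_div, div_le_iff₀ (by positivity)]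
      exact mul_le_mul_of_nonneg_left (by linarith [le_abs_self (∫ _ in Ω, M)]) hδ.le
    linarith
  have hae := (setIntegral_eq_zero_iff_of_nonneg_ae
    (.of_forall fun x => mul_self_nonneg (g x)) hsm).1 hz
  have he := Measure.eqOn_open_of_ae_eq (hae) ho
    ((hg.mul hg).mono subset_closure) continuousOn_const
  exact fun x hx => mul_self_eq_zero.1 (he hx)

end Vale.Agent.P136
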