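import Vale.Agent.P136.Fields

/-! A body with constant shear modulus and the one-sided mean condition (P136). -/

open MeasureTheory Set
open scoped ContDiff

namespace Vale.Agent.P136

variable {Ω : Set R3}

/-- The linear field with gradient `B`. -/
noncomputable def linField (B : Fin 3 → Fin 3 → ℝ) (x : R3) : R3 :=
  fun j => lin (fun i => B i j) x

theorem contDiff_linField (B : Fin 3 → Fin 3 → ℝ) : ContDiff ℝ ∞ (linField B) :=
  contDiff_pi.2 fun _ => contDiff_lin _

theorem strain_linField {B : Fin 3 → Fin 3 → ℝ} (hs : ∀ i j, B i j = B j i) (x : R3)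
    (i j : Fin 3) : strain (linField B) x i j = B i j := by
  simp [strain, grad, linField, pd_lin, ← hs i j]

theorem divg_linField {B : Fin 3 → Fin 3 → ℝ} (ht : ∑ i, B i i = 0) (x : R3) :
    divg (linField B) x = 0 := by
  simp [divg, grad, linField, pd_lin, ht]

theorem bil_linField {B : Fin 3 → Fin 3 → ℝ} (hs : ∀ i j, B i j = B j i) (ht : ∑ i, B i i = 0)
    (lam mu : R3 → ℝ) (w : R3 → R3) (x : R3) :
    bil lam mu (linField B) w x = 2 * mu x * ∑ i, ∑ j, B i j * strain w x i j := by
  simp [bil, divg_linField ht, strain_linField hs]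

theorem energy_linField {B : Fin 3 → Fin 3 → ℝ} (hs : ∀ i j, B i j = B j i) (ht : ∑ i, B i i = 0)
    (lam mu : R3 → ℝ) :
    energy Ω lam mu (linField B) = 2 * (∑ i, ∑ j, B i j ^ 2) * ∫ x in Ω, mu x := by
  simp only [energy, density, divg_linField ht, strain_linField hs]
  rw [← integral_const_mul]
  refine integral_congr_ae (.of_forall fun x => ?_)
  ring

theorem integral_const_strain (ho : IsOpen Ω) (hb : Bornology.IsBounded Ω)
    {B : Fin 3 → Fin 3 → ℝ} (hs : ∀ i j, B i j = B j i) {w : R3 → R3} (hw : IsTestField Ω w) :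
    ∫ x in Ω, ∑ i, ∑ j, B i j * strain w x i j = 0 := by
  rw [stress_ibp ho hb hw (S := fun i j _ => B i j) (fun i j => contDiff_const)
    (fun i j _ => hs i j)]
  simp [pd_const]

variable {μ0 : ℝ} {l₁ l₂ m₂ : R3 → ℝ}

theorem dataForm_linField (ho : IsOpen Ω) (hb : Bornology.IsBounded Ω)
    (ha : Admissible Ω l₁ (fun _ => μ0)) {B : Fin 3 → Fin 3 → ℝ} (hs : ∀ i j, B i j = B j i)
    (ht : ∑ i, B i i = 0) :
    dataForm Ω l₁ (fun _ => μ0) (linField B)
      = 2 * (∑ i, ∑ j, B i j ^ 2) * ∫ _ in Ω, μ0 := by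
  rw [← energy_linField hs ht l₁]
  refine le_antisymm (dataForm_le_self ho ha _) (le_dataForm fun w hw => ?_)
  rw [energy_add hb ha.1 ha.2.1 (contDiff_linField B) hw.1]
  simp only [bil_linField hs ht]
  rw [integral_const_mul, integral_const_strain ho hb hs hw]
  linarith [energy_nonneg ho ha w]

/-- An upper bound `μ0` on the mean of the shear modulus makes it constant. -/
theorem mu_const_of_mean_le (ho : IsOpen Ω) (hb : Bornology.IsBounded Ω) (hc : IsPreconnected Ω)
    (ha₁ : Admissible Ω l₁ (fun _ => μ0)) (ha₂ : Admissible Ω l₂ m₂)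
    (hd : ContDiffOn ℝ 1 m₂ Ω) (hS : SameData Ω l₁ (fun _ => μ0) l₂ m₂)
    (hle : ∫ x in Ω, m₂ x ≤ ∫ _ in Ω, μ0) : ∀ x ∈ Ω, m₂ x = μ0 := by
  have low : ∀ B : Fin 3 → Fin 3 → ℝ, (∀ i j, B i j = B j i) → ∑ i, B i i = 0 →
      ∀ v, IsTestField Ω v →
        2 * (∑ i, ∑ j, B i j ^ 2) * (∫ _ in Ω, μ0) ≤ energy Ω l₂ m₂ (linField B + v) := by
    intro B hs ht v hv
    rw [← dataForm_linField ho hb ha₁ hs ht, hS _ (contDiff_linField B)]
    exact dataForm_le ho ha₂ _ hv
  have orth : ∀ B : Fin 3 → Fin 3 → ℝ, (∀ i j, B i j = B j i) → ∑ i, B i i = 0 →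
      ∀ w, IsTestField Ω w → ∫ x in Ω, bil l₂ m₂ (linField B) w x = 0 := by
    intro B hs ht w hw
    set Q := ∫ x in Ω, bil l₂ m₂ (linField B) w x with hQ
    set E := energy Ω l₂ m₂ w with hE
    have hE0 : 0 ≤ E := energy_nonneg ho ha₂ w
    have key : ∀ t : ℝ, 0 ≤ 2 * t * Q + t ^ 2 * E := by
      intro t
      have htw : IsTestField Ω (t • w) := ⟨hw.1.const_smul t, hw.2.1.smul_left,
        (tsupport_smul_subset_right (fun _ => t) w).trans hw.2.2⟩
      have := low B hs ht _ htw
      rw [energy_add hb ha₂.1 ha₂.2.1 (contDiff_linField B) htw.1, energy_linField hs ht] at this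
      simp only [bil_smul hw.1, energy, density_smul hw.1, integral_const_mul] at this
      have h2 := mul_le_mul_of_nonneg_left hle
        (by positivity : (0 : ℝ) ≤ 2 * ∑ i, ∑ j, B i j ^ 2)
      simp only [hQ, hE, energy]
      nlinarith
    by_contra hne
    have h := key (-Q / (E + 1))
    have e : 2 * (-Q / (E + 1)) * Q + (-Q / (E + 1)) ^ 2 * E
        = -(Q ^ 2 * (E + 2)) / (E + 1) ^ 2 := by field_simp; ring
    rw [e] at h
    have : 0 < Q ^ 2 * (E + 2) / (E + 1) ^ 2 :=
      div_pos (mul_pos (pow_two_pos_of_ne_zero hne) (by linarith)) (by positivity)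
    rw [neg_div] at h
    linarith
  have hpd : ∀ i : Fin 3, ∀ x ∈ Ω, pd i m₂ x = 0 := by
    intro i
    have hcont : ContinuousOn (pd i m₂) Ω :=
      (hd.continuousOn_fderiv_of_isOpen ho (by simp)).clm_apply continuousOn_const
    have key := ho.ae_eq_zero_of_integral_contDiff_smul_eq_zero (μ := volume)
      (hcont.locallyIntegrableOn ho.measurableSet) (fun ψ hψ hψc hψs => by
        set j : Fin 3 := i + 1 with hj
        have hij : i ≠ j := by
          have hk : ∀ k : Fin 3, k ≠ k + 1 := by decide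
          exact hj ▸ hk i
        let B : Fin 3 → Fin 3 → ℝ := fun a b =>
          (if a = i ∧ b = j then 1 else 0) + (if a = j ∧ b = i then 1 else 0)
        let w : R3 → R3 := fun y => Pi.single j (ψ y)
        have hw : IsTestField Ω w := by
          refine ⟨contDiff_pi.2 fun k => ?_, hψc.comp_left (g := fun t => Pi.single j t) (by simp),
            (tsupport_comp_subset (g := fun t : ℝ => (Pi.single j t : R3)) (by simp) ψ).trans hψs⟩
          by_cases hk : k = j
          · subst hk; simpa [w] using hψ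
          · simpa [w, hk] using contDiff_const
        have hBs : ∀ a b, B a b = B b a := by
          intro a b; simp only [B, and_comm, add_comm]
        have hBt : ∑ a, B a a = 0 := by
          refine Finset.sum_eq_zero fun a _ => ?_
          simp only [B]
          rw [if_neg (fun h => hij (h.1.symm.trans h.2)), if_neg (fun h => hij (h.2.symm.trans h.1))]
          simp
        have hgr : ∀ y a b, grad w y a b = if b = j then pd a ψ y else 0 := by
          intro y a b
          by_cases hk : b = j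
          · subst hk; simp [grad, w]
          · simp [grad, w, hk, pd_const]
        have he : ∀ y, bil l₂ m₂ (linField B) w y = 2 * (pd i ψ y * m₂ y) := by
          intro y
          have h1 : ∀ a b, B a b * strain w y a b
              = (if a = i ∧ b = j then strain w y a b else 0)
                + (if a = j ∧ b = i then strain w y a b else 0) := by
            intro a b; simp [B, add_mul]
          rw [bil_linField hBs hBt,
            Finset.sum_congr rfl (fun a _ => Finset.sum_congr rfl fun b _ => h1 a b)]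
          simp only [Finset.sum_add_distrib, ite_and, Finset.sum_ite_irrel, Finset.sum_const_zero,
            Finset.sum_ite_eq', Finset.mem_univ, if_true, strain, hgr, hij, if_false]
          ring
        have h0 := orth B hBs hBt w hw
        simp only [he, integral_const_mul] at h0
        have h1 := ibp ho hψ hψc hψs hd i
        have h2 : ∫ x in Ω, ψ x * pd i m₂ x = ∫ x, ψ x • pd i m₂ x :=
          setIntegral_eq_integral_of_forall_compl_eq_zero fun x hx => by
            rw [image_eq_zero_of_notMem_tsupport (fun h => hx (hψs h)), zero_mul]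
        linarith)
    exact Measure.eqOn_open_of_ae_eq ((ae_restrict_iff' ho.measurableSet).2 key) ho hcont
      continuousOn_const
  obtain ⟨c, hc'⟩ := ho.exists_is_const_of_fderiv_eq_zero hc (hd.differentiableOn (by simp))
    (fun x hx => by
      ext v
      have hv : v = ∑ i : Fin 3, v i • (Pi.single i 1 : R3) := by
        ext k; simp [Pi.single_apply]
      have h0 : fderiv ℝ m₂ x v = 0 := by
        rw [congrArg (fderiv ℝ m₂ x) hv, map_sum]
        exact Finset.sum_eq_zero fun i _ => by
          have := hpd i x hx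
          unfold pd at this
          rw [map_smul, this, smul_zero]
      simpa using h0)
  intro x hx
  let B : Fin 3 → Fin 3 → ℝ := fun a b =>
    (if a = 0 ∧ b = 1 then 1 else 0) + (if a = 1 ∧ b = 0 then 1 else 0)
  have hBs : ∀ a b, B a b = B b a := by intro a b; simp only [B, and_comm, add_comm]
  have hBt : ∑ a, B a a = 0 := by simp [B, Fin.sum_univ_three]
  have h0 := low B hBs hBt 0 isTestField_zero
  rw [add_zero, energy_linField hBs hBt] at h0
  have hB2 : (∑ a, ∑ b, B a b ^ 2) = 2 := by simp [B, Fin.sum_univ_three]; norm_num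
  rw [hB2] at h0
  have e : ∫ y in Ω, m₂ y = ∫ _ in Ω, c := setIntegral_congr_fun ho.measurableSet hc'
  rw [e] at h0 hle
  have hV : 0 < volume.real Ω :=
    ENNReal.toReal_pos (ho.measure_pos volume ⟨x, hx⟩).ne' hb.measure_lt_top.ne
  simp only [setIntegral_const, smul_eq_mul] at h0 hle
  rw [hc' x hx]
  nlinarith

/-- Completing the square in the energy density at one point. -/
theorem pointwise_bound {μ0 l m c : ℝ} (hm : 0 < m) (h1 : c ≤ 2 * m) (h2 : c ≤ 3 * l + 2 * m)
    {B : Fin 3 → Fin 3 → ℝ} (ht : ∑ i, B i i = 0) (e : Fin 3 → Fin 3 → ℝ) :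
    c * (∑ i, ∑ j, (B i j + e i j - μ0 * (1 / m) * B i j) ^ 2) ≤
      l * (∑ i, e i i) ^ 2 + 2 * m * (∑ i, ∑ j, (B i j + e i j) ^ 2)
        + (-(4 * μ0 * ∑ i, ∑ j, B i j ^ 2)) + (-(4 * μ0)) * (∑ i, ∑ j, B i j * e i j)
        + 2 * μ0 ^ 2 * (∑ i, ∑ j, B i j ^ 2) * (1 / m) := by
  set k := μ0 * (1 / m) with hk
  set z : Fin 3 → Fin 3 → ℝ := fun i j => B i j + e i j - k * B i j with hz
  have htr : ∑ i, e i i = ∑ i, z i i := by
    simp only [hz, Finset.sum_sub_distrib, Finset.sum_add_distrib, ← Finset.mul_sum, ht]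
    ring
  have hsum : 2 * m * ∑ i, ∑ j, z i j ^ 2 = 2 * m * (∑ i, ∑ j, (B i j + e i j) ^ 2)
      + (-(4 * μ0 * ∑ i, ∑ j, B i j ^ 2)) + (-(4 * μ0)) * (∑ i, ∑ j, B i j * e i j)
      + 2 * μ0 ^ 2 * (∑ i, ∑ j, B i j ^ 2) * (1 / m) := by
    simp only [Finset.mul_sum, Finset.sum_mul, ← Finset.sum_neg_distrib, ← Finset.sum_add_distrib]
    refine Finset.sum_congr rfl fun i _ => Finset.sum_congr rfl fun j _ => ?_
    simp only [hz, hk]
    field_simp
    ring
  have hsq : (∑ i, z i i) ^ 2 ≤ 3 * ∑ i, ∑ j, z i j ^ 2 := by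
    simp only [Fin.sum_univ_three]
    nlinarith [sq_nonneg (z 0 0 - z 1 1), sq_nonneg (z 1 1 - z 2 2),
      sq_nonneg (z 0 0 - z 2 2), sq_nonneg (z 0 1), sq_nonneg (z 1 0),
      sq_nonneg (z 0 2), sq_nonneg (z 2 0), sq_nonneg (z 1 2), sq_nonneg (z 2 1)]
  have hnn : 0 ≤ ∑ i, ∑ j, z i j ^ 2 := by positivity
  rw [htr]
  show c * (∑ i, ∑ j, z i j ^ 2) ≤ _
  rcases le_total 0 l with hl | hl
  · linarith [mul_le_mul_of_nonneg_right h1 hnn, mul_nonneg hl (sq_nonneg (∑ i, z i i))]
  · linarith [mul_le_mul_of_nonneg_right h2 hnn, mul_le_mul_of_nonpos_left hsq hl]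

set_option maxHeartbeats 1000000 in
/-- A lower bound `μ0` on the harmonic mean of the shear modulus makes it constant. -/
theorem mu_const_of_harmonic (ho : IsOpen Ω) (hb : Bornology.IsBounded Ω)
    (ha₁ : Admissible Ω l₁ (fun _ => μ0)) (ha₂ : Admissible Ω l₂ m₂) (hμ : 0 < μ0)
    (hS : SameData Ω l₁ (fun _ => μ0) l₂ m₂)
    (hle : ∫ x in Ω, 1 / m₂ x ≤ ∫ _ in Ω, 1 / μ0) : ∀ x ∈ Ω, m₂ x = μ0 := by
  have hK := hb.isCompact_closure
  have hpos : ∀ x ∈ closure Ω, 0 < min (2 * m₂ x) (3 * l₂ x + 2 * m₂ x) := fun x hx =>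
    lt_min (by linarith [(ha₂.2.2 x hx).1]) (ha₂.2.2 x hx).2
  obtain ⟨c0, hc0, hc0le⟩ := hK.exists_forall_le' (a := 0)
    ((continuousOn_const.mul ha₂.2.1).inf
      ((continuousOn_const.mul ha₂.1).add (continuousOn_const.mul ha₂.2.1))) hpos
  have hinv : ContinuousOn (fun x => 1 / m₂ x) (closure Ω) :=
    continuousOn_const.div ha₂.2.1 fun x hx => (ha₂.2.2 x hx).1.ne'
  have hf : ContinuousOn (fun x => 1 - μ0 * (1 / m₂ x)) (closure Ω) :=
    continuousOn_const.sub (continuousOn_const.mul hinv)
  have main : ∀ x ∈ Ω, 1 - μ0 * (1 / m₂ x) = 0 := by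
    refine eq_zero_of_expo ho hb hf fun a => ?_
    obtain ⟨b, hb0, hab⟩ := exists_orth a
    set n := ∑ k, b k * b k with hn
    let B : Fin 3 → Fin 3 → ℝ := fun i j => b i * b j - if i = j then n / 3 else 0
    have hBs : ∀ i j, B i j = B j i := by
      intro i j
      simp only [B, eq_comm (a := i), mul_comm (b i)]
    have hBt : ∑ i, B i i = 0 := by
      simp [B, hn, Fin.sum_univ_three]; ring
    set B2 := ∑ i, ∑ j, B i j ^ 2 with hB2
    have hBb : ∑ i, ∑ j, B i j * (b i * b j) = 2 / 3 * n ^ 2 := by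
      simp [B, hn, Fin.sum_univ_three]; ring
    let u : (R3 → R3) → R3 → R3 := fun w => linField B + w
    -- the deviation of the strain from the optimal one
    let z : (R3 → R3) → R3 → Fin 3 → Fin 3 → ℝ := fun w x i j =>
      B i j + strain w x i j - μ0 * (1 / m₂ x) * B i j
    set J := 2 / 3 * n ^ 2 * ∫ x in Ω, (1 - μ0 * (1 / m₂ x)) * expo a x with hJ
    set P := ∫ x in Ω, ∑ i, ∑ j, (b i * b j * expo a x) ^ 2 with hP
    have bound : ∀ δ > 0, |J| ≤ δ / 2 * (P + 1) := by
      intro δ hδ
      have hdat : dataForm Ω l₂ m₂ (linField B) = 2 * B2 * ∫ _ in Ω, μ0 := by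
        rw [← hS _ (contDiff_linField B), dataForm_linField ho hb ha₁ hBs hBt]
      obtain ⟨w, hw, hlt⟩ := exists_lt_of_dataForm_lt
        (c := 2 * B2 * (∫ _ in Ω, μ0) + δ ^ 2 * c0)
        (by rw [hdat]; linarith [mul_pos (pow_pos hδ 2) hc0])
      have hzc : ∀ i j, ContinuousOn (fun x => z w x i j) (closure Ω) := fun i j =>
        (continuousOn_const.add (contDiff_strain hw.1 i j).continuous.continuousOn).sub
          ((continuousOn_const.mul hinv).mul continuousOn_const)
      have hz2c : ContinuousOn (fun x => ∑ i, ∑ j, z w x i j ^ 2) (closure Ω) :=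
        continuousOn_finsetSum _ fun i _ => continuousOn_finsetSum _ fun j _ => (hzc i j).pow 2
      have hBe : ContinuousOn (fun x => ∑ i, ∑ j, B i j * strain w x i j) (closure Ω) :=
        continuousOn_finsetSum _ fun i _ => continuousOn_finsetSum _ fun j _ =>
          continuousOn_const.mul (contDiff_strain hw.1 i j).continuous.continuousOn
      have ptw : ∀ x ∈ closure Ω, c0 * (∑ i, ∑ j, z w x i j ^ 2) ≤
          density l₂ m₂ (linField B + w) x + (-(4 * μ0 * B2)) +
            (-(4 * μ0)) * (∑ i, ∑ j, B i j * strain w x i j) + 2 * μ0 ^ 2 * B2 * (1 / m₂ x) := by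
        intro x hx
        have hm := (ha₂.2.2 x hx).1
        have hc : c0 ≤ min (2 * m₂ x) (3 * l₂ x + 2 * m₂ x) := hc0le x hx
        have hd : density l₂ m₂ (linField B + w) x = l₂ x * (∑ i, strain w x i i) ^ 2
            + 2 * m₂ x * ∑ i, ∑ j, (B i j + strain w x i j) ^ 2 := by
          simp only [density, divg_add (contDiff_linField B) hw.1, divg_linField hBt,
            strain_add (contDiff_linField B) hw.1, strain_linField hBs, zero_add]
          simp [divg, strain]
        rw [hd, hB2]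
        exact pointwise_bound hm (hc.trans (min_le_left _ _)) (hc.trans (min_le_right _ _))
          hBt (strain w x)
      have iz := intOn hb hz2c
      have id' : IntegrableOn (fun x => density l₂ m₂ (linField B + w) x) Ω :=
        intOn hb (continuousOn_density ha₂.1 ha₂.2.1 ((contDiff_linField B).add hw.1))
      have ic : IntegrableOn (fun _ : R3 => -(4 * μ0 * B2)) Ω := intOn hb continuousOn_const
      have ie : IntegrableOn
          (fun x => (-(4 * μ0)) * ∑ i, ∑ j, B i j * strain w x i j) Ω :=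
        (intOn hb hBe).const_mul _
      have ii : IntegrableOn (fun x => 2 * μ0 ^ 2 * B2 * (1 / m₂ x)) Ω :=
        (intOn hb hinv).const_mul _
      have i12 : IntegrableOn
          (fun x => density l₂ m₂ (linField B + w) x + (-(4 * μ0 * B2))) Ω := id'.add ic
      have i123 : IntegrableOn (fun x => density l₂ m₂ (linField B + w) x + (-(4 * μ0 * B2)) +
          (-(4 * μ0)) * ∑ i, ∑ j, B i j * strain w x i j) Ω := i12.add ie
      have i1234 : IntegrableOn (fun x => density l₂ m₂ (linField B + w) x + (-(4 * μ0 * B2)) +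
          (-(4 * μ0)) * (∑ i, ∑ j, B i j * strain w x i j) + 2 * μ0 ^ 2 * B2 * (1 / m₂ x)) Ω :=
        i123.add ii
      have hzb : c0 * ∫ x in Ω, ∑ i, ∑ j, z w x i j ^ 2 ≤ δ ^ 2 * c0 := by
        rw [← integral_const_mul]
        refine (setIntegral_mono_on (iz.const_mul c0) i1234 ho.measurableSet
          fun x hx => ptw x (subset_closure hx)).trans ?_
        rw [integral_add i123 ii, integral_add i12 ie, integral_add id' ic,
          integral_const_mul, integral_const_mul, integral_const_strain ho hb hBs hw,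
          setIntegral_const, smul_eq_mul]
        have hB20 : (0 : ℝ) ≤ B2 := by positivity
        simp only [setIntegral_const, smul_eq_mul] at hlt hle
        have := mul_le_mul_of_nonneg_left hle (by positivity : (0 : ℝ) ≤ 2 * μ0 ^ 2 * B2)
        have e : 2 * μ0 ^ 2 * B2 * (volume.real Ω * (1 / μ0)) = 2 * μ0 * B2 * volume.real Ω := by
          field_simp
        unfold energy at hlt
        linarith
      have hzb' : ∫ x in Ω, ∑ i, ∑ j, z w x i j ^ 2 ≤ δ ^ 2 :=
        le_of_mul_le_mul_left (by linarith) hc0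
      have hψz : ContinuousOn (fun x => ∑ i, ∑ j, b i * b j * expo a x * z w x i j) (closure Ω) :=
        continuousOn_finsetSum _ fun i _ => continuousOn_finsetSum _ fun j _ =>
          (continuousOn_const.mul (contDiff_expo a).continuous.continuousOn).mul (hzc i j)
      have hstress : ∫ x in Ω, ∑ i, ∑ j, b i * b j * expo a x * strain w x i j = 0 := by
        rw [stress_ibp ho hb hw (S := fun i j x => b i * b j * expo a x)
          (fun i j => contDiff_const.mul (contDiff_expo a)) (fun i j x => by ring)]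
        have e0 : ∀ x j, ∑ i, pd i (fun y => b i * b j * expo a y) x = 0 := by
          intro x j
          simp only [pd_const_mul (contDiff_expo a), pd_expo]
          calc ∑ i, b i * b j * (a i * expo a x) = (∑ i, a i * b i) * (b j * expo a x) := by
                rw [Finset.sum_mul]; exact Finset.sum_congr rfl fun i _ => by ring
            _ = 0 := by rw [hab, zero_mul]
        simp [e0]
      have eJ : J = ∫ x in Ω, ∑ i, ∑ j, b i * b j * expo a x * z w x i j := by
        have e1 : ∀ x, ∑ i, ∑ j, b i * b j * expo a x * z w x i j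
            = (∑ i, ∑ j, b i * b j * expo a x * strain w x i j)
              + (∑ i, ∑ j, B i j * (b i * b j)) * ((1 - μ0 * (1 / m₂ x)) * expo a x) := by
          intro x
          simp only [z, Fin.sum_univ_three]
          ring
        simp only [e1, hBb]
        rw [integral_add, hstress, integral_const_mul, zero_add, hJ]
        · exact intOn hb (continuous_finsetSum _ fun i _ => continuous_finsetSum _ fun j _ =>
            (continuous_const.mul (contDiff_expo a).continuous).mul
              (contDiff_strain hw.1 i j).continuous).continuousOn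
        · exact (intOn hb (hf.mul (contDiff_expo a).continuous.continuousOn)).const_mul _
      have iP : IntegrableOn (fun x => ∑ i, ∑ j, (b i * b j * expo a x) ^ 2) Ω :=
        intOn hb (continuous_finsetSum _ fun i _ => continuous_finsetSum _ fun j _ =>
          (continuous_const.mul (contDiff_expo a).continuous).pow 2).continuousOn
      have s1 : IntegrableOn (fun x => δ / 2 * ∑ i, ∑ j, (b i * b j * expo a x) ^ 2) Ω :=
        iP.const_mul _
      have s2 : IntegrableOn (fun x => 1 / (2 * δ) * ∑ i, ∑ j, z w x i j ^ 2) Ω :=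
        iz.const_mul _
      have s12 : IntegrableOn (fun x => δ / 2 * (∑ i, ∑ j, (b i * b j * expo a x) ^ 2)
          + 1 / (2 * δ) * ∑ i, ∑ j, z w x i j ^ 2) Ω := s1.add s2
      have amgm : ∀ p q : ℝ, |p * q| ≤ δ / 2 * p ^ 2 + 1 / (2 * δ) * q ^ 2 := by
        intro p q
        have e : δ / 2 * p ^ 2 + 1 / (2 * δ) * q ^ 2 - |p * q|
            = 1 / (2 * δ) * (δ * |p| - |q|) ^ 2 := by
          rw [abs_mul, ← sq_abs p, ← sq_abs q]; field_simp; ring
        have : 0 ≤ 1 / (2 * δ) * (δ * |p| - |q|) ^ 2 := by positivity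
        linarith
      calc |J| ≤ ∫ x in Ω, |∑ i, ∑ j, b i * b j * expo a x * z w x i j| := by
            rw [eJ]; exact abs_integral_le_integral_abs
        _ ≤ ∫ x in Ω, (δ / 2 * (∑ i, ∑ j, (b i * b j * expo a x) ^ 2)
              + 1 / (2 * δ) * ∑ i, ∑ j, z w x i j ^ 2) := by
            refine setIntegral_mono_on (intOn hb hψz).abs s12 ho.measurableSet fun x _ => ?_
            rw [Finset.mul_sum, Finset.mul_sum, ← Finset.sum_add_distrib]
            refine (Finset.abs_sum_le_sum_abs _ _).trans (Finset.sum_le_sum fun i _ => ?_)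
            rw [Finset.mul_sum, Finset.mul_sum, ← Finset.sum_add_distrib]
            exact (Finset.abs_sum_le_sum_abs _ _).trans (Finset.sum_le_sum fun j _ => amgm _ _)
        _ ≤ δ / 2 * (P + 1) := by
            rw [integral_add s1 s2, integral_const_mul, integral_const_mul, ← hP]
            have h5 := mul_le_mul_of_nonneg_left hzb' (by positivity : (0 : ℝ) ≤ 1 / (2 * δ))
            have e : 1 / (2 * δ) * δ ^ 2 = δ / 2 := by field_simp
            linarith
    have hP0 : 0 ≤ P := setIntegral_nonneg ho.measurableSet fun x _ => by positivity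
    have hJ0 : J = 0 := abs_nonpos_iff.1 (le_of_forall_pos_le_add fun η hη => by
      have h := bound (2 * η / (P + 1)) (by positivity)
      have e : 2 * η / (P + 1) / 2 * (P + 1) = η := by field_simp
      linarith)
    exact (mul_eq_zero.1 hJ0).resolve_left (by positivity)
  intro x hx
  have hm := (ha₂.2.2 x (subset_closure hx)).1
  have h := main x hx
  field_simp at h
  linarith

/-- One inequality for the difference of the reciprocal moduli. -/
theorem lam_ineq (ho : IsOpen Ω) (hb : Bornology.IsBounded Ω) (hμ : 0 < μ0) {m₁ : R3 → ℝ}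
    (ha₁ : Admissible Ω l₁ m₁) (ha₂ : Admissible Ω l₂ m₂)
    (e₁ : ∀ x ∈ closure Ω, m₁ x = μ0) (e₂ : ∀ x ∈ closure Ω, m₂ x = μ0)
    (hS : SameData Ω l₁ m₁ l₂ m₂) {u₀ : R3 → R3} {p : R3 → ℝ}
    (hu₀ : Balanced μ0 u₀ (fun _ => 0) p) :
    ∫ x in Ω, (1 / (l₁ x + 2 * μ0) - 1 / (l₂ x + 2 * μ0)) * p x ^ 2 ≤ 0 := by
  have s₁ : ∀ x ∈ closure Ω, 0 < l₁ x + 2 * μ0 := fun x hx => by
    have := (ha₁.2.2 x hx).2; rw [e₁ x hx] at this; linarith
  have s₂ : ∀ x ∈ closure Ω, 0 < l₂ x + 2 * μ0 := fun x hx => by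
    have := (ha₂.2.2 x hx).2; rw [e₂ x hx] at this; linarith
  have cs₁ : ContinuousOn (fun x => l₁ x + 2 * μ0) (closure Ω) := ha₁.1.add continuousOn_const
  have cs₂ : ContinuousOn (fun x => l₂ x + 2 * μ0) (closure Ω) := ha₂.1.add continuousOn_const
  have hp : ContDiff ℝ ∞ p := hu₀.2.2.1
  have hf : ContinuousOn (fun x => p x / (l₁ x + 2 * μ0)) (closure Ω) :=
    hp.continuous.continuousOn.div cs₁ fun x hx => (s₁ x hx).ne'
  refine le_of_forall_pos_le_add fun η hη => ?_
  set T := ∫ x in Ω, (l₁ x + 2 * μ0) with hT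
  have hT0 : 0 ≤ T := setIntegral_nonneg ho.measurableSet fun x hx => (s₁ x (subset_closure hx)).le
  set ε := min 1 (η / (T + 1)) with hε
  have hε0 : 0 < ε := lt_min one_pos (by positivity)
  obtain ⟨q, ⟨uq, huq⟩, hq⟩ := exists_approx hb.isCompact_closure hf
    (fun q => ∃ v, Balanced μ0 v q (fun _ => 0)) ⟨0, balanced_zero μ0 0⟩
    (fun q r ⟨v, hv⟩ ⟨v', hv'⟩ => ⟨v + v', by simpa using balanced_add hv hv'⟩)
    (fun c q ⟨v, hv⟩ => ⟨c • v, by simpa using balanced_smul (c := c) hv⟩)
    (balanced_expo μ0) hε0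
  have hU : Balanced μ0 (u₀ + uq) q p := by simpa using balanced_add hu₀ huq
  set u := u₀ + uq with hu
  obtain ⟨hu1, hq1, -, hdiv, heq⟩ := hU
  let r : R3 → ℝ := fun x => (l₂ x + 2 * μ0) * q x - p x
  have cr : ContinuousOn r (closure Ω) :=
    (cs₂.mul hq1.continuous.continuousOn).sub hp.continuous.continuousOn
  have crs : ContinuousOn (fun x => r x ^ 2 / (l₂ x + 2 * μ0)) (closure Ω) :=
    (cr.pow 2).div cs₂ fun x hx => (s₂ x hx).ne'
  have lower : energy Ω l₂ m₂ u - ∫ x in Ω, r x ^ 2 / (l₂ x + 2 * μ0)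
      ≤ dataForm Ω l₂ m₂ u := by
    refine le_dataForm fun w hw => ?_
    have cd := (contDiff_divg hw.1).continuous.continuousOn (s := closure Ω)
    have g1 : ContDiff ℝ ∞ (fun x => 2 * μ0 * q x + (-1) * p x) :=
      (contDiff_const.mul hq1).add (contDiff_const.mul hp)
    have hQ : ∫ x in Ω, bil l₂ m₂ u w x = ∫ x in Ω, r x * divg w x := by
      have iA : IntegrableOn (fun x => l₂ x * q x * divg w x) Ω :=
        intOn hb ((ha₂.1.mul hq1.continuous.continuousOn).mul cd)
      have iB : IntegrableOn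
          (fun x => ∑ i, ∑ j, 2 * μ0 * strain u x i j * strain w x i j) Ω :=
        intOn hb (continuous_finsetSum _ fun i _ => continuous_finsetSum _ fun j _ =>
          (continuous_const.mul (contDiff_strain hu1 i j).continuous).mul
            (contDiff_strain hw.1 i j).continuous).continuousOn
      have iC : IntegrableOn (fun x => (2 * μ0 * q x + (-1) * p x) * divg w x) Ω :=
        intOn hb (g1.continuous.continuousOn.mul cd)
      have k : ∫ x in Ω, ∑ i, ∑ j, 2 * μ0 * strain u x i j * strain w x i j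
          = ∫ x in Ω, (2 * μ0 * q x + (-1) * p x) * divg w x := by
        rw [stress_ibp ho hb hw (S := fun i j x => 2 * μ0 * strain u x i j)
          (fun i j => contDiff_const.mul (contDiff_strain hu1 i j))
          (fun i j x => by simp [strain, add_comm])]
        have ij : ∀ j, IntegrableOn
            (fun x => w x j * pd j (fun y => 2 * μ0 * q y + (-1) * p y) x) Ω := fun j =>
          intOn hb ((contDiff_comp_apply hw.1 j).continuous.mul
            (contDiff_pd g1 j).continuous).continuousOn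
        have ig : ∀ j, IntegrableOn
            (fun x => (2 * μ0 * q x + (-1) * p x) * grad w x j j) Ω := fun j =>
          intOn hb (g1.continuous.mul (contDiff_grad hw.1 j j).continuous).continuousOn
        have e : ∀ x j, ∑ i, pd i (fun y => 2 * μ0 * strain u y i j) x
            = pd j (fun y => 2 * μ0 * q y + (-1) * p y) x := by
          intro x j
          rw [heq, pd_add (contDiff_const.mul hq1) (contDiff_const.mul hp), pd_const_mul hq1,
            pd_const_mul hp]
          ring
        simp only [e, divg, Finset.mul_sum]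
        rw [integral_finsetSum _ fun j _ => ij j, integral_finsetSum _ fun j _ => ig j,
          ← Finset.sum_neg_distrib]
        refine Finset.sum_congr rfl fun j _ => ?_
        obtain ⟨h1, h2, h3⟩ := test_comp hw j
        rw [← ibp ho h1 h2 h3 (g1.contDiffOn.of_le (by simp)) j]
        exact integral_congr_ae (.of_forall fun x => mul_comm _ _)
      calc ∫ x in Ω, bil l₂ m₂ u w x
            = ∫ x in Ω, (l₂ x * q x * divg w x
              + ∑ i, ∑ j, 2 * μ0 * strain u x i j * strain w x i j) := by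
            refine setIntegral_congr_fun ho.measurableSet fun x hx => ?_
            simp only [bil, hdiv, e₂ x (subset_closure hx), Finset.mul_sum, mul_assoc]
        _ = ∫ x in Ω, (l₂ x * q x * divg w x
              + (2 * μ0 * q x + (-1) * p x) * divg w x) := by
            rw [integral_add iA iB, integral_add iA iC, k]
        _ = ∫ x in Ω, r x * divg w x := integral_congr_ae (.of_forall fun x => by
            simp only [r]; ring)
    have iS : IntegrableOn (fun x => ∑ i, ∑ j, strain w x i j ^ 2) Ω :=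
      intOn hb (continuous_finsetSum _ fun i _ => continuous_finsetSum _ fun j _ =>
        (contDiff_strain hw.1 i j).continuous.pow 2).continuousOn
    have id2 : IntegrableOn (fun x => divg w x ^ 2) Ω := intOn hb (cd.pow 2)
    have il : IntegrableOn (fun x => l₂ x * divg w x ^ 2) Ω := intOn hb (ha₂.1.mul (cd.pow 2))
    have hEw : ∫ x in Ω, (l₂ x + 2 * μ0) * divg w x ^ 2 ≤ energy Ω l₂ m₂ w := by
      have e : energy Ω l₂ m₂ w = ∫ x in Ω,
          (l₂ x * divg w x ^ 2 + 2 * μ0 * ∑ i, ∑ j, strain w x i j ^ 2) :=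
        setIntegral_congr_fun ho.measurableSet fun x hx => by
          simp only [density, e₂ x (subset_closure hx)]
      have i2 : IntegrableOn (fun x => 2 * μ0 * ∑ i, ∑ j, strain w x i j ^ 2) Ω :=
        iS.const_mul _
      have i3 : IntegrableOn (fun x => 2 * μ0 * divg w x ^ 2) Ω := id2.const_mul _
      rw [e, integral_add il i2, integral_const_mul]
      simp only [add_mul]
      rw [integral_add il i3, integral_const_mul]
      have := mul_le_mul_of_nonneg_left (strain_sq_ge ho hb hw) (by linarith : 0 ≤ 2 * μ0)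
      linarith
    rw [energy_add hb ha₂.1 ha₂.2.1 hu1 hw.1, hQ]
    have ia : IntegrableOn (fun x => r x * divg w x) Ω := intOn hb (cr.mul cd)
    have ib : IntegrableOn (fun x => (l₂ x + 2 * μ0) * divg w x ^ 2) Ω :=
      intOn hb (cs₂.mul (cd.pow 2))
    have ia2 : IntegrableOn (fun x => 2 * (r x * divg w x)) Ω := ia.const_mul 2
    have iab : IntegrableOn
        (fun x => 2 * (r x * divg w x) + (l₂ x + 2 * μ0) * divg w x ^ 2) Ω := ia2.add ib
    have irs : IntegrableOn (fun x => -(r x ^ 2 / (l₂ x + 2 * μ0))) Ω := (intOn hb crs).neg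
    have hpt := setIntegral_mono_on irs iab ho.measurableSet fun x hx => by
      have hs := s₂ x (subset_closure hx)
      have e : 2 * (r x * divg w x) + (l₂ x + 2 * μ0) * divg w x ^ 2 + r x ^ 2 / (l₂ x + 2 * μ0)
          = ((l₂ x + 2 * μ0) * divg w x + r x) ^ 2 / (l₂ x + 2 * μ0) := by field_simp; ring
      have : 0 ≤ ((l₂ x + 2 * μ0) * divg w x + r x) ^ 2 / (l₂ x + 2 * μ0) := by positivity
      linarith
    rw [integral_neg, integral_add ia2 ib, integral_const_mul] at hpt
    linarith
  have upper : dataForm Ω l₂ m₂ u ≤ energy Ω l₁ m₁ u := by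
    rw [← hS u hu1]; exact dataForm_le_self ho ha₁ u
  have idd₁ : IntegrableOn (density l₁ m₁ u) Ω :=
    intOn hb (continuousOn_density ha₁.1 ha₁.2.1 hu1)
  have idd₂ : IntegrableOn (density l₂ m₂ u) Ω :=
    intOn hb (continuousOn_density ha₂.1 ha₂.2.1 hu1)
  have i21 : IntegrableOn (fun x => density l₂ m₂ u x - density l₁ m₁ u x) Ω := idd₂.sub idd₁
  have irs : IntegrableOn (fun x => r x ^ 2 / (l₂ x + 2 * μ0)) Ω := intOn hb crs
  have i21r : IntegrableOn (fun x => density l₂ m₂ u x - density l₁ m₁ u x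
      - r x ^ 2 / (l₂ x + 2 * μ0)) Ω := i21.sub irs
  have isq : IntegrableOn (fun x => ε * (l₁ x + 2 * μ0)) Ω := (intOn hb cs₁).const_mul ε
  have itot : IntegrableOn (fun x => density l₂ m₂ u x - density l₁ m₁ u x
      - r x ^ 2 / (l₂ x + 2 * μ0) + ε * (l₁ x + 2 * μ0)) Ω := i21r.add isq
  have ilhs : IntegrableOn
      (fun x => (1 / (l₁ x + 2 * μ0) - 1 / (l₂ x + 2 * μ0)) * p x ^ 2) Ω :=
    intOn hb (((continuousOn_const.div cs₁ fun x hx => (s₁ x hx).ne').sub
      (continuousOn_const.div cs₂ fun x hx => (s₂ x hx).ne')).mul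
      (hp.continuous.continuousOn.pow 2))
  have hmain := setIntegral_mono_on ilhs itot ho.measurableSet fun x hx => by
    have hx' := subset_closure hx
    have h1 := s₁ x hx'
    have h2 := s₂ x hx'
    have e : density l₂ m₂ u x - density l₁ m₁ u x - r x ^ 2 / (l₂ x + 2 * μ0)
        + (l₁ x + 2 * μ0) * (q x - p x / (l₁ x + 2 * μ0)) ^ 2
        = (1 / (l₁ x + 2 * μ0) - 1 / (l₂ x + 2 * μ0)) * p x ^ 2 := by
      simp only [density, hdiv, e₁ x hx', e₂ x hx', r]
      field_simp
      ring
    have hd := (hq x hx').le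
    have hsq : (q x - p x / (l₁ x + 2 * μ0)) ^ 2 ≤ ε := by
      calc (q x - p x / (l₁ x + 2 * μ0)) ^ 2 = |q x - p x / (l₁ x + 2 * μ0)| ^ 2 :=
            (sq_abs _).symm
        _ ≤ ε ^ 2 := pow_le_pow_left₀ (abs_nonneg _) hd 2
        _ ≤ ε := by nlinarith [min_le_left 1 (η / (T + 1)), hε0, hε]
    have := mul_le_mul_of_nonneg_left hsq h1.le
    linarith
  rw [integral_add i21r isq, integral_sub i21 irs, integral_sub idd₂ idd₁, integral_const_mul]
    at hmain
  have hεT : ε * T ≤ η := by
    calc ε * T ≤ η / (T + 1) * T := mul_le_mul_of_nonneg_right (min_le_right _ _) hT0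
      _ ≤ η := by
        rw [div_mul_eq_mul_div, div_le_iff₀ (by positivity)]
        exact mul_le_mul_of_nonneg_left (by linarith) hη.le
  rw [← hT] at hmain
  unfold energy at lower upper
  linarith

/-- With equal constant shear moduli the data determine the other modulus. -/
theorem lam_eq (ho : IsOpen Ω) (hb : Bornology.IsBounded Ω) (hμ : 0 < μ0) {m₁ : R3 → ℝ}
    (ha₁ : Admissible Ω l₁ m₁) (ha₂ : Admissible Ω l₂ m₂)
    (e₁ : ∀ x ∈ closure Ω, m₁ x = μ0) (e₂ : ∀ x ∈ closure Ω, m₂ x = μ0)
    (hS : SameData Ω l₁ m₁ l₂ m₂) : ∀ x ∈ Ω, l₁ x = l₂ x := by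
  have s₁ : ∀ x ∈ closure Ω, 0 < l₁ x + 2 * μ0 := fun x hx => by
    have := (ha₁.2.2 x hx).2; rw [e₁ x hx] at this; linarith
  have s₂ : ∀ x ∈ closure Ω, 0 < l₂ x + 2 * μ0 := fun x hx => by
    have := (ha₂.2.2 x hx).2; rw [e₂ x hx] at this; linarith
  have cg : ContinuousOn (fun x => 1 / (l₁ x + 2 * μ0) - 1 / (l₂ x + 2 * μ0)) (closure Ω) :=
    (continuousOn_const.div (ha₁.1.add continuousOn_const) fun x hx => (s₁ x hx).ne').sub
      (continuousOn_const.div (ha₂.1.add continuousOn_const) fun x hx => (s₂ x hx).ne')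
  have key : ∀ (u : R3 → R3) (p : R3 → ℝ), Balanced μ0 u (fun _ => 0) p →
      ∫ x in Ω, (1 / (l₁ x + 2 * μ0) - 1 / (l₂ x + 2 * μ0)) * p x ^ 2 = 0 := by
    intro u p hu
    refine le_antisymm (lam_ineq ho hb hμ ha₁ ha₂ e₁ e₂ hS hu) ?_
    have h := lam_ineq ho hb hμ ha₂ ha₁ e₂ e₁ (fun F hF => (hS F hF).symm) hu
    have e : ∫ x in Ω, (1 / (l₂ x + 2 * μ0) - 1 / (l₁ x + 2 * μ0)) * p x ^ 2
        = -∫ x in Ω, (1 / (l₁ x + 2 * μ0) - 1 / (l₂ x + 2 * μ0)) * p x ^ 2 := by
      rw [← integral_neg]
      exact integral_congr_ae (.of_forall fun x => by ring)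
    linarith
  have main := eq_zero_of_expo ho hb cg fun a => by
    by_cases ha : a = 0
    · subst ha
      have := key 0 (fun _ => 1) (balanced_zero μ0 1)
      simpa [expo, lin_apply] using this
    · let h : R3 := fun k => a k / 2
      obtain ⟨v, hv0, hv⟩ := exists_orth h
      have hh : 0 < ∑ k, h k * h k := by
        obtain ⟨k, hk⟩ := Function.ne_iff.1 ha
        exact Finset.sum_pos' (fun i _ => mul_self_nonneg _)
          ⟨k, Finset.mem_univ k, mul_self_pos.2 (div_ne_zero hk two_ne_zero)⟩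
      set s := Real.sqrt ((∑ k, h k * h k) / ∑ k, v k * v k) with hs
      let b : R3 := fun k => s * v k
      have hsq : ∑ k, h k * h k = ∑ k, b k * b k := by
        have : ∑ k, b k * b k = s ^ 2 * ∑ k, v k * v k := by
          rw [Finset.mul_sum]; exact Finset.sum_congr rfl fun k _ => by ring
        rw [this, hs, Real.sq_sqrt (by positivity), div_mul_cancel₀ _ hv0.ne']
      have hor : ∑ k, h k * b k = 0 := by
        calc ∑ k, h k * b k = s * ∑ k, h k * v k := by
              rw [Finset.mul_sum]; exact Finset.sum_congr rfl fun k _ => by ring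
          _ = 0 := by rw [hv, mul_zero]
      obtain ⟨u₁, hu₁⟩ := balanced_osc hμ.ne' hh.ne' hsq hor 1 0
      obtain ⟨u₂, hu₂⟩ := balanced_osc hμ.ne' hh.ne' hsq hor 0 1
      have k1 := key u₁ _ hu₁
      have k2 := key u₂ _ hu₂
      have e : ∀ x, (1 / (l₁ x + 2 * μ0) - 1 / (l₂ x + 2 * μ0)) * expo a x
          = (1 / (l₁ x + 2 * μ0) - 1 / (l₂ x + 2 * μ0)) * osc h b 1 0 x ^ 2
            + (1 / (l₁ x + 2 * μ0) - 1 / (l₂ x + 2 * μ0)) * osc h b 0 1 x ^ 2 := by
        intro x
        have e1 : lin a x = lin h x + lin h x := by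
          rw [← lin_add]; congr 2; funext k; simp [h]
        simp only [expo, osc, e1, Real.exp_add]
        have := Real.cos_sq_add_sin_sq (lin b x)
        linear_combination (-(1 / (l₁ x + 2 * μ0) - 1 / (l₂ x + 2 * μ0)) *
          Real.exp (lin h x) ^ 2) * this
      have c : ∀ A B, IntegrableOn (fun x =>
          (1 / (l₁ x + 2 * μ0) - 1 / (l₂ x + 2 * μ0)) * osc h b A B x ^ 2) Ω := fun A B =>
        intOn hb (cg.mul ((contDiff_osc h b A B).continuous.continuousOn.pow 2))
      simp only [e]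
      rw [integral_add (c 1 0) (c 0 1), k1, k2, add_zero]
  intro x hx
  have h := main x hx
  have h1 := (s₁ x (subset_closure hx)).ne'
  have h2 := (s₂ x (subset_closure hx)).ne'
  field_simp at h
  linarith

/-- Uniqueness against a body with constant shear modulus. -/
theorem unique_of_mean (ho : IsOpen Ω) (hb : Bornology.IsBounded Ω) (hc : IsConnected Ω)
    (ha₁ : Admissible Ω l₁ (fun _ => μ0)) (ha₂ : Admissible Ω l₂ m₂)
    (hd : ContDiffOn ℝ 1 m₂ Ω) (hS : SameData Ω l₁ (fun _ => μ0) l₂ m₂)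
    (hmean : (∫ x in Ω, m₂ x ≤ ∫ _ in Ω, μ0) ∨ (∫ x in Ω, 1 / m₂ x ≤ ∫ _ in Ω, 1 / μ0)) :
    ∀ x ∈ closure Ω, m₂ x = μ0 ∧ l₂ x = l₁ x := by
  obtain ⟨x₀, hx₀⟩ := hc.nonempty
  have hμ : 0 < μ0 := (ha₁.2.2 x₀ (subset_closure hx₀)).1
  have hm : EqOn m₂ (fun _ => μ0) Ω := by
    intro x hx
    rcases hmean with h | h
    · exact mu_const_of_mean_le ho hb hc.isPreconnected ha₁ ha₂ hd hS h x hx
    · exact mu_const_of_harmonic ho hb ha₁ ha₂ hμ hS h x hx
  have hm' : EqOn m₂ (fun _ => μ0) (closure Ω) :=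
    hm.of_subset_closure ha₂.2.1 continuousOn_const subset_closure Subset.rfl
  have hl : EqOn l₂ l₁ Ω := fun x hx =>
    (lam_eq ho hb hμ ha₁ ha₂ (fun _ _ => rfl) hm' hS x hx).symm
  have hl' : EqOn l₂ l₁ (closure Ω) :=
    hl.of_subset_closure ha₂.1 ha₁.1 subset_closure Subset.rfl
  exact fun x hx => ⟨hm' hx, hl' hx⟩

end Vale.Agent.P136
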